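import Vale.Agent.P018.R2.H677.MuSmall

set_option linter.all false

/-! # P018, N018Y: the two criteria in the scale `t = k b`, with weights proportional to `κ`. -/

namespace Vale.Agent.N018Y

open Finset Vale.Agent.P018.K2 Vale.Agent.P018.K3 Vale.Agent.P018.R2.H677

theorem crit_mono (d k r : ℕ) (a b b' : ℝ) (hb : b ≤ b') (h : Crit d k r a b) :
    Crit d k r a b' := by
  obtain ⟨T, lam, B, V, h1, h2, h3, h4⟩ := h
  refine ⟨T, lam, B, V, h1, h2, fun T' hT' => le_trans (sum_le_sum fun τ _ => ?_) (h3 T' hT'), h4⟩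
  have h5 : (0 : ℝ) ≤ ∑ i, (τ.2 i : ℝ) := sum_nonneg fun i _ => Nat.cast_nonneg _
  linarith only [mul_le_mul_of_nonneg_right hb h5]

theorem exists_rat_below (g : ℝ → ℝ) (x : ℝ) (hx : 0 < x) (hg : Continuous g) (h : 0 < g x) :
    ∃ q : ℚ, 0 < (q : ℝ) ∧ (q : ℝ) < x ∧ 0 < g q := by
  have h1 : ∀ᶠ y in nhds x, 0 < g y := hg.continuousAt.eventually (lt_mem_nhds h)
  obtain ⟨δ, hδ, h2⟩ := Metric.eventually_nhds_iff.1 h1
  obtain ⟨q, h3, h4⟩ := exists_rat_btwn (show max 0 (x - δ) < x from max_lt hx (by linarith))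
  refine ⟨q, (le_max_left _ _).trans_lt h3, h4, h2 ?_⟩
  have h5 := (le_max_right _ _).trans_lt h3
  rw [Real.dist_eq, abs_lt]
  constructor <;> linarith

/-- the criterion with the linear weight `m = κ ν`. -/
theorem crit_lin (d k r : ℕ) (hd : 1 ≤ d) (hk : 1 ≤ k) (hr : 1 ≤ r) (a : ℝ) (ha : 0 < a)
    (hκ1 : a / d * k ≤ 1) (t : ℝ) (ht : 0 < t) (ν : ℚ) (h0 : 0 ≤ ν) (h1 : ν < 1)
    (h : (1 - a / d * k * ν) ^ (r + 1) < t ^ r * (a / d * k) *
      ∑ e ∈ range r, (cf r e : ℝ) * (ν : ℝ) ^ e * (1 - ν) ^ (r + 1 - e)) :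
    Crit d k r a (t / k) := by
  have hd0 : (0 : ℝ) < d := by exact_mod_cast hd
  have hk0 : (0 : ℝ) < k := by exact_mod_cast hk
  obtain ⟨κ, hκ⟩ : ∃ κ : ℝ, κ = a / d * k := ⟨_, rfl⟩
  have hκ0 : 0 < κ := by rw [hκ]; positivity
  rw [← hκ] at h hκ1
  obtain ⟨G, hG⟩ : ∃ G : ℝ,
      G = ∑ e ∈ range r, (cf r e : ℝ) * (ν : ℝ) ^ e * (1 - ν) ^ (r + 1 - e) := ⟨_, rfl⟩
  rw [← hG] at h
  obtain ⟨β, hβ0, hβ1, hβ2⟩ := exists_rat_below
    (fun y => y ^ r * κ ^ (r + 1) * G - (1 - κ * ν) ^ (r + 1)) (t / κ) (by positivity)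
    (by fun_prop) (by
      have e : (t / κ) ^ r * κ ^ (r + 1) * G = t ^ r * κ * G := by
        rw [div_pow, pow_succ]
        field_simp
      rw [e]
      linarith only [h])
  obtain ⟨q, hq0, hq1, hq2⟩ := exists_rat_below
    (fun y => (β : ℝ) ^ r * y ^ (r + 1) * G - (1 - y * ν) ^ (r + 1)) κ hκ0 (by fun_prop) hβ2
  have hq0' : (0 : ℚ) < q := by exact_mod_cast hq0
  have hq3 : q ≤ 1 := by
    have : (q : ℝ) ≤ 1 := hq1.le.trans hκ1
    exact_mod_cast this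
  have hβ0' : (0 : ℚ) < β := by exact_mod_cast hβ0
  have hstep : stepOK q r (q * ν, β) = true := by
    unfold stepOK
    simp only [Bool.and_eq_true, decide_eq_true_eq]
    refine ⟨⟨⟨⟨by positivity, by nlinarith⟩, by nlinarith⟩, hβ0'⟩, ?_⟩
    have e1 : ((r + 1).factorial : ℚ) * β ^ r * Gq r (q * ν) q =
        β ^ r * q ^ (r + 1) * ∑ e ∈ range r, (cf r e : ℚ) * ν ^ e * (1 - ν) ^ (r + 1 - e) := by
      rw [mul_comm ((r + 1).factorial : ℚ), mul_assoc, Gq_eq, mul_assoc, mul_sum, mul_sum, mul_sum]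
      refine sum_congr rfl fun e he => ?_
      rw [mem_range] at he
      have e2 : q ^ (r + 1) = q ^ e * q ^ (r + 1 - e) := by
        rw [← pow_add]
        congr 1
        omega
      rw [show q - q * ν = q * (1 - ν) by ring, mul_pow, mul_pow, e2]
      ring
    rw [e1]
    have h3 : (1 - (q : ℝ) * ν) ^ (r + 1) < (β : ℝ) ^ r * (q : ℝ) ^ (r + 1) * G := by
      linarith only [hq2]
    rw [hG] at h3
    exact_mod_cast h3
  have h4 := crit_of_step d k r hd hk hr a ha (κ0 := q) (by rw [← hκ]; exact hq1.le) hstep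
  refine crit_mono d k r a _ _ ?_ h4
  have e : t / k = a / d * (t / κ) := by
    rw [hκ]
    field_simp
  rw [e]
  exact mul_le_mul_of_nonneg_left hβ1.le (by positivity)

/-- the criterion with the constant weight `μ = κ ν`. -/
theorem crit_con (d k r : ℕ) (hd : 1 ≤ d) (hk : 1 ≤ k) (hr : 1 ≤ r) (a : ℝ) (ha : 0 < a)
    (t : ℝ) (ht : 0 < t) (ν : ℝ) (h0 : 0 ≤ ν)
    (h : (1 + a / d * k * ν) ^ (r + 2) - (a / d * k * ν) ^ (r + 2) < t ^ r * (a / d * k) *
      ∑ e ∈ range (r + 2), (cmf r e : ℝ) * ν ^ e) :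
    Crit d k r a (t / k) := by
  have hd0 : (0 : ℝ) < d := by exact_mod_cast hd
  have hk0 : (0 : ℝ) < k := by exact_mod_cast hk
  obtain ⟨κ, hκ⟩ : ∃ κ : ℝ, κ = a / d * k := ⟨_, rfl⟩
  have hκ0 : 0 < κ := by rw [hκ]; positivity
  rw [← hκ] at h
  have e : t / k = a / d * (t / κ) := by
    rw [hκ]
    field_simp
  rw [e]
  refine critMu d k r hd hk hr a (t / κ) (κ * ν) ha (by positivity) (by positivity) ?_
  rw [← hκ]
  refine h.trans_eq ?_
  rw [← Finset.sum_range_reflect, mul_sum, mul_sum]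
  refine sum_congr rfl fun s hs => ?_
  rw [mem_range] at hs
  have e2 : r + 2 - 1 - s = r + 1 - s := by omega
  have e4 : (r + 2).choose (r + 1 - s) = (r + 2).choose (s + 1) := by
    rw [← Nat.choose_symm (show s + 1 ≤ r + 2 by omega)]
    congr 1
    omega
  have e5 : 2 * r - (r + 1 - s) = r + s - 1 := by omega
  have e6 : r + 1 - (r + 1 - s) = s := by omega
  rw [e2]
  unfold cmf
  rw [e4, e5, e6]
  have e7 : κ ^ (r + 1 - s) * κ ^ s = κ ^ r * κ := by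
    rw [← pow_add, ← pow_succ]
    congr 1
    omega
  rw [div_pow, mul_pow]
  have e8 : t ^ r / κ ^ r * ((((r + 2).choose (s + 1) * (r + s - 1).choose s : ℕ) : ℝ) *
      (κ ^ (r + 1 - s) * ν ^ (r + 1 - s)) * κ ^ s) =
      t ^ r / κ ^ r * (κ ^ (r + 1 - s) * κ ^ s) *
        ((((r + 2).choose (s + 1) * (r + s - 1).choose s : ℕ) : ℝ) * ν ^ (r + 1 - s)) := by ring
  rw [e8, e7]
  field_simp

/-- `(1 + x) ^ n - x ^ n - c x` is convex on `x ≥ 0`. -/
theorem conv_pow (n : ℕ) (c x0 x1 x : ℝ) (h0 : 0 ≤ x0) (h1 : x0 ≤ x) (h2 : x ≤ x1)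
    (g0 : (1 + x0) ^ n - x0 ^ n < c * x0) (g1 : (1 + x1) ^ n - x1 ^ n < c * x1) :
    (1 + x) ^ n - x ^ n < c * x := by
  have key : ∀ y : ℝ, (1 + y) ^ n - y ^ n = ∑ j ∈ range n, (n.choose j : ℝ) * y ^ j := by
    intro y
    rw [add_comm, add_pow, sum_range_succ]
    simp only [one_pow, mul_one, Nat.choose_self, Nat.cast_one, add_sub_cancel_right]
    exact sum_congr rfl fun j _ => mul_comm _ _
  rcases eq_or_lt_of_le (h1.trans h2) with h3 | h3
  · have : x = x0 := le_antisymm (h3 ▸ h2) h1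
    rw [this]
    exact g0
  obtain ⟨θ, hθ⟩ : ∃ θ : ℝ, θ = (x - x0) / (x1 - x0) := ⟨_, rfl⟩
  have hpos : 0 < x1 - x0 := sub_pos.2 h3
  have hθ0 : 0 ≤ θ := by rw [hθ]; exact div_nonneg (sub_nonneg.2 h1) hpos.le
  have hθ1 : 0 ≤ 1 - θ := by
    rw [hθ, sub_nonneg, div_le_one hpos]
    linarith only [h2]
  have hx : (1 - θ) * x0 + θ * x1 = x := by
    rw [hθ]
    field_simp
    ring
  have h4 : ∑ j ∈ range n, (n.choose j : ℝ) * x ^ j ≤
      (1 - θ) * ∑ j ∈ range n, (n.choose j : ℝ) * x0 ^ j +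
        θ * ∑ j ∈ range n, (n.choose j : ℝ) * x1 ^ j := by
    rw [mul_sum, mul_sum, ← sum_add_distrib]
    refine sum_le_sum fun j _ => ?_
    have h5 := (convexOn_pow (𝕜 := ℝ) j).2 (Set.mem_Ici.2 h0) (Set.mem_Ici.2 (h0.trans h3.le))
      hθ1 hθ0 (by ring)
    simp only [smul_eq_mul] at h5
    rw [hx] at h5
    have h6 := mul_le_mul_of_nonneg_left h5 (Nat.cast_nonneg (α := ℝ) (n.choose j))
    linarith only [h6]
  rw [key] at g0 g1 ⊢
  refine h4.trans_lt ?_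
  rw [← hx]
  rcases eq_or_lt_of_le hθ0 with h5 | h5
  · rw [← h5]
    simpa using g0
  · have h6 := mul_lt_mul_of_pos_left g1 h5
    have h7 := mul_le_mul_of_nonneg_left g0.le hθ1
    linarith only [h6, h7]

/-- admissibility from a sequence `t`. -/
theorem adm_of_seq (d k : ℕ) (a : ℝ) (t : ℕ → ℝ) (h0 : t 0 = a / d) (hpos : ∀ r, 0 < t r)
    (hc : ∀ r, r + 2 ≤ d → t r ≤ t (r + 1) ∨ Crit d k (r + 1) a (t (r + 1)))
    (hs : ∑ r ∈ range d, t r < 1) : Adm2 d k a := by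
  have hle : ∀ r, rmin (a / d) t r ≤ t r := by
    intro r
    cases r with
    | zero => rw [h0, rmin]
    | succ r => exact min_le_right _ _
  refine ⟨rmin (a / d) t, by rw [rmin], fun r => min_le_left _ _,
    rmin_pos _ t (h0 ▸ hpos 0) hpos _, ?_, (sum_le_sum fun r _ => hle r).trans_lt hs⟩
  intro r hr1 hr2 hlt
  obtain ⟨s, rfl⟩ : ∃ s, r = s + 1 := ⟨r - 1, by omega⟩
  rw [Nat.add_sub_cancel] at hlt
  have hEq : rmin (a / d) t (s + 1) = t (s + 1) := by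
    rw [rmin]
    refine min_eq_right ?_
    by_contra hcon
    push Not at hcon
    rw [rmin, min_eq_left hcon.le] at hlt
    exact lt_irrefl _ hlt
  rw [hEq] at hlt ⊢
  rcases hc s (by omega) with h | h
  · exact absurd (hlt.trans_le (hle s)) (not_lt.2 h)
  · exact h

end Vale.Agent.N018Y
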