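import Vale.Agent.N018Y.Crit
import Vale.Agent.P018.R2.H803.Sum16

set_option linter.all false

/-! # P018, N018Y: the steps `r ≥ 128`, uniformly in `1/4 ≤ κ`. -/

namespace Vale.Agent.N018Y

open Finset Vale.Agent.P018.K2 Vale.Agent.P018.K3 Vale.Agent.P018.R2.H677
  Vale.Agent.P018.H867R Vale.Agent.P018.R2.H803

theorem cmf_succ (r e : ℕ) (he : e < r) :
    cmf r (e + 1) * ((e + 1) * (2 * r - e)) = cmf r e * ((r + 2 - e) * (r + 1 - e)) := by
  have h1 := Nat.choose_succ_right_eq (r + 2) e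
  have h2 := Nat.add_one_mul_choose_eq (2 * r - (e + 1)) (r + 1 - (e + 1))
  rw [show 2 * r - (e + 1) + 1 = 2 * r - e by omega, show r + 1 - (e + 1) + 1 = r + 1 - e by omega]
    at h2
  unfold cmf
  calc (r + 2).choose (e + 1) * (2 * r - (e + 1)).choose (r + 1 - (e + 1)) * ((e + 1) * (2 * r - e))
      = ((r + 2).choose (e + 1) * (e + 1)) *
        ((2 * r - e) * (2 * r - (e + 1)).choose (r + 1 - (e + 1))) := by ring
    _ = ((r + 2).choose e * (r + 2 - e)) * ((2 * r - e).choose (r + 1 - e) * (r + 1 - e)) := by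
        rw [h1, h2]
    _ = _ := by ring

theorem term_step (r e : ℕ) (he : e < r) (ρ : ℝ)
    (h : ρ * (((e : ℝ) + 1) * (2 * r - e) * (r + 2)) ≤ 2.8 * ((r + 2 - e) * (r + 1 - e))) :
    ρ * ((cmf r e : ℝ) * (2.8 / ((r : ℝ) + 2)) ^ e) ≤
      (cmf r (e + 1) : ℝ) * (2.8 / ((r : ℝ) + 2)) ^ (e + 1) := by
  have h1 : (cmf r (e + 1) : ℝ) * (((e : ℝ) + 1) * (2 * r - e)) =
      (cmf r e : ℝ) * ((r + 2 - e) * (r + 1 - e)) := by
    have h2 : ((cmf r (e + 1) * ((e + 1) * (2 * r - e)) : ℕ) : ℝ) =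
      ((cmf r e * ((r + 2 - e) * (r + 1 - e)) : ℕ) : ℝ) := by rw [cmf_succ r e he]
    push_cast [Nat.cast_sub (show e ≤ 2 * r by omega), Nat.cast_sub (show e ≤ r + 2 by omega),
      Nat.cast_sub (show e ≤ r + 1 by omega)] at h2
    exact h2
  have he' : (e : ℝ) < r := by exact_mod_cast he
  have he0 : (0 : ℝ) ≤ e := Nat.cast_nonneg e
  have hp : 0 < ((e : ℝ) + 1) * (2 * r - e) * (r + 2) :=
    mul_pos (mul_pos (by linarith) (by linarith)) (by linarith)
  refine le_of_mul_le_mul_right ?_ hp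
  obtain ⟨x, hx⟩ : ∃ x : ℝ, x = (2.8 / ((r : ℝ) + 2)) ^ e := ⟨_, rfl⟩
  have hx0 : 0 ≤ x := by rw [hx]; positivity
  rw [pow_succ, ← hx]
  have e1 : (cmf r (e + 1) : ℝ) * (x * (2.8 / ((r : ℝ) + 2))) *
      (((e : ℝ) + 1) * (2 * r - e) * (r + 2)) =
      ((cmf r (e + 1) : ℝ) * (((e : ℝ) + 1) * (2 * r - e))) * (x * 2.8) := by
    have : (r : ℝ) + 2 ≠ 0 := by positivity
    field_simp
  rw [e1, h1]
  have h3 := mul_le_mul_of_nonneg_left h (mul_nonneg (Nat.cast_nonneg (α := ℝ) (cmf r e)) hx0)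
  linarith only [h3]

theorem sum_lower (r : ℕ) (hr : 128 ≤ r) :
    4.027 * cb r ≤ ∑ e ∈ range (r + 2), (cmf r e : ℝ) * (2.8 / ((r : ℝ) + 2)) ^ e := by
  have hr' : (128 : ℝ) ≤ r := by exact_mod_cast hr
  have h0 : (cmf r 0 : ℝ) * (2.8 / ((r : ℝ) + 2)) ^ 0 = cb r := by
    unfold cmf cb
    rw [pow_zero, mul_one, Nat.choose_zero_right, one_mul, Nat.sub_zero, Nat.sub_zero,
      ← Nat.choose_symm (show r + 1 ≤ 2 * r by omega)]
    congr 2
    omega
  have h1 := term_step r 0 (by omega) 1.4 (by push_cast; nlinarith)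
  have h2 := term_step r 1 (by omega) 0.6972 (by push_cast; nlinarith)
  have h3 := term_step r 2 (by omega) 0.4594 (by push_cast; nlinarith)
  have h4 := term_step r 3 (by omega) 0.3405 (by push_cast; nlinarith)
  have h5 := term_step r 4 (by omega) 0.2692 (by push_cast; nlinarith)
  have h6 := term_step r 5 (by omega) 0.2216 (by push_cast; nlinarith)
  have h7 : ∑ e ∈ range 7, (cmf r e : ℝ) * (2.8 / ((r : ℝ) + 2)) ^ e ≤
      ∑ e ∈ range (r + 2), (cmf r e : ℝ) * (2.8 / ((r : ℝ) + 2)) ^ e :=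
    sum_le_sum_of_subset_of_nonneg (range_subset_range.2 (by omega)) fun e _ _ => by positivity
  refine le_trans ?_ h7
  simp only [sum_range_succ, sum_range_zero]
  rw [h0] at h1 ⊢
  have hc := cb_pos r
  norm_num only at h1 h2 h3 h4 h5 h6 ⊢
  linarith only [h1, h2, h3, h4, h5, h6, hc]

theorem exp_07 : Real.exp 0.7 ≤ 2.0138 := by
  have h := Real.exp_bound' (x := 0.7) (by norm_num) (by norm_num) (n := 7) (by norm_num)
  refine h.trans ?_
  simp only [sum_range_succ, sum_range_zero, Nat.factorial]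
  norm_num

/-- the criterion for the late steps. -/
theorem crit_tail (d k r : ℕ) (hd : 1 ≤ d) (hk : 1 ≤ k) (hr : 128 ≤ r) (a : ℝ) (ha : 0 < a)
    (hκ : 1 / 4 ≤ a / d * k) (t : ℝ) (ht : 0 < t) (h : 2.015 ≤ t ^ r * cb r) :
    Crit d k r a (t / k) := by
  have hd0 : (0 : ℝ) < d := by exact_mod_cast hd
  have hk0 : (0 : ℝ) < k := by exact_mod_cast hk
  have hr' : (128 : ℝ) ≤ r := by exact_mod_cast hr
  rcases le_total (a / d * k) (1 / 2) with h1 | h1
  · obtain ⟨ν, hν⟩ : ∃ ν : ℝ, ν = 2.8 / ((r : ℝ) + 2) := ⟨_, rfl⟩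
    have hν0 : 0 < ν := by rw [hν]; positivity
    refine crit_con d k r hd hk (by omega) a ha t ht ν hν0.le ?_
    have h2 := sum_lower r hr
    rw [← hν] at h2
    obtain ⟨G, hG⟩ : ∃ G : ℝ, G = ∑ e ∈ range (r + 2), (cmf r e : ℝ) * ν ^ e := ⟨_, rfl⟩
    rw [← hG] at h2 ⊢
    have h3 : 4.027 * 2.015 ≤ t ^ r * G := by
      have h4 := mul_le_mul_of_nonneg_left h2 (pow_pos ht r).le
      linarith only [h4, h]
    have h5 : ∀ y : ℝ, 0 ≤ y → (1 + y * ν) ^ (r + 2) - (y * ν) ^ (r + 2) ≤ Real.exp (2.8 * y) := by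
      intro y hy
      have h6 : (1 + y * ν) ^ (r + 2) ≤ Real.exp (y * ν) ^ (r + 2) :=
        pow_le_pow_left₀ (by positivity) (by linarith only [Real.add_one_le_exp (y * ν)]) _
      rw [← Real.exp_nat_mul] at h6
      have e1 : ((r + 2 : ℕ) : ℝ) * (y * ν) = 2.8 * y := by
        rw [hν]
        push_cast
        field_simp
      rw [e1] at h6
      have h7 : 0 ≤ (y * ν) ^ (r + 2) := by positivity
      linarith only [h6, h7]
    have e3 : ∀ y : ℝ, t ^ r * y * G = t ^ r * G / ν * (y * ν) := by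
      intro y
      field_simp
    rw [e3]
    have h8 := exp_07
    refine conv_pow (r + 2) _ (1 / 4 * ν) (1 / 2 * ν) _ (by positivity)
      (mul_le_mul_of_nonneg_right hκ hν0.le) (mul_le_mul_of_nonneg_right h1 hν0.le) ?_ ?_
    · rw [← e3]
      refine (h5 _ (by norm_num)).trans_lt ?_
      rw [show (2.8 : ℝ) * (1 / 4) = 0.7 by norm_num]
      linarith only [h8, h3]
    · rw [← e3]
      refine (h5 _ (by norm_num)).trans_lt ?_
      rw [show (2.8 : ℝ) * (1 / 2) = 0.7 + 0.7 by norm_num, Real.exp_add]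
      have h9 : Real.exp 0.7 * Real.exp 0.7 ≤ 2.0138 * 2.0138 :=
        mul_le_mul h8 h8 (Real.exp_pos _).le (by norm_num)
      linarith only [h9, h3]
  · refine crit_zero d k r hd hk (by omega) a (t / k) ha (by positivity) ?_
    have hcb' : (((2 * r).choose (r - 1) : ℕ) : ℝ) = cb r := rfl
    have e1 : (t / k) ^ r * (a / d) * (k : ℝ) ^ (r + 1) * cb r = (t ^ r * cb r) * (a / d * k) := by
      rw [div_pow, pow_succ (k : ℝ)]
      field_simp
    rw [hcb', e1]
    have h2 := mul_le_mul h h1 (by norm_num) (le_trans (by norm_num) h)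
    linarith only [h2]

/-- the late steps. -/
noncomputable def vv (r : ℕ) : ℝ := 1 / 4 * Real.exp ((1.2751 + Real.log r / 2 + 1 / r) / r)

theorem vv_pos (r : ℕ) : 0 < vv r := by
  unfold vv
  positivity

theorem log_A : 2.015 * 1.776 ≤ Real.exp 1.2751 := by
  rw [← Real.log_le_iff_le_exp (by norm_num)]
  have hl2' := Real.log_two_lt_d9
  have h4 : Real.log 4 = 2 * Real.log 2 := by
    rw [show (4 : ℝ) = 2 ^ 2 by norm_num, Real.log_pow]
    norm_num
  have h1 := Real.le_log_one_add_of_nonneg (x := (4 : ℝ) / (2.015 * 1.776) - 1) (by norm_num)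
  rw [add_sub_cancel, Real.log_div (by norm_num) (by norm_num), h4] at h1
  norm_num at h1 ⊢
  linarith only [h1, hl2']

theorem vv_pow (r : ℕ) (hr : 128 ≤ r) : 2.015 ≤ vv r ^ r * cb r := by
  have hr0 : (0 : ℝ) < r := by exact_mod_cast (show 0 < r by omega)
  have hcb := cb_pos r
  have h2 : 2.015 * 1.776 * Real.sqrt r * (1 + 1 / r) ≤
      Real.exp ((1.2751 + Real.log r / 2 + 1 / r) / r) ^ r := by
    rw [← Real.exp_nat_mul, mul_div_cancel₀ _ hr0.ne', Real.exp_add, Real.exp_add]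
    have e1 : Real.exp (Real.log r / 2) = Real.sqrt r := by
      rw [Real.sqrt_eq_rpow, Real.rpow_def_of_pos hr0]
      congr 1
      ring
    rw [e1]
    have e2 : 1 + 1 / (r : ℝ) ≤ Real.exp (1 / r) := by
      have := Real.add_one_le_exp (1 / (r : ℝ))
      linarith only [this]
    exact mul_le_mul (mul_le_mul_of_nonneg_right log_A (Real.sqrt_nonneg _)) e2 (by positivity)
      (by positivity)
  have h4 := cb_lower' r (by omega)
  unfold vv
  obtain ⟨E, hE⟩ : ∃ E : ℝ, E = Real.exp ((1.2751 + Real.log r / 2 + 1 / r) / r) ^ r := ⟨_, rfl⟩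
  rw [mul_pow, ← hE]
  rw [← hE] at h2
  have h5 : (4 : ℝ) ^ r * 2.015 ≤ E * cb r := by
    have h6 : (4 : ℝ) ^ r * 2.015 * r ≤ E * cb r * r := by
      calc (4 : ℝ) ^ r * 2.015 * r = 2.015 * (4 ^ r * r) := by ring
        _ ≤ 2.015 * (1.776 * Real.sqrt r * ((r + 1) * cb r)) :=
            mul_le_mul_of_nonneg_left h4 (by norm_num)
        _ = (2.015 * 1.776 * Real.sqrt r * (1 + 1 / r)) * (cb r * r) := by
            field_simp
        _ ≤ E * (cb r * r) := mul_le_mul_of_nonneg_right h2 (by positivity)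
        _ = _ := by ring
    exact le_of_mul_le_mul_right h6 hr0
  rw [one_div, inv_pow, mul_assoc, inv_mul_eq_div, le_div_iff₀ (by positivity)]
  linarith only [h5]

/-- the comparison function. -/
noncomputable def Psi (d : ℝ) : ℝ := d / 4 + Real.log d ^ 2 / 16 + Real.log d / 3 - 0.8 / d

/-- one step. -/
theorem vv_step (r : ℕ) (hr : 128 ≤ r) : vv r ≤ Psi ((r : ℝ) + 1) - Psi r := by
  have hr' : (128 : ℝ) ≤ r := by exact_mod_cast hr
  have hr0 : (0 : ℝ) < r := by linarith only [hr']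
  have hl2 := Real.log_two_gt_d9
  have hl2' := Real.log_two_lt_d9
  have h128 : Real.log 128 = 7 * Real.log 2 := by
    rw [show (128 : ℝ) = 2 ^ 7 by norm_num, Real.log_pow]
    norm_num
  obtain ⟨L, hL⟩ : ∃ L, L = Real.log r := ⟨_, rfl⟩
  have hL1 : 4.852 ≤ L := by
    have : Real.log 128 ≤ Real.log r := Real.log_le_log (by norm_num) hr'
    rw [hL]
    linarith only [this, h128, hl2]
  obtain ⟨s, hs⟩ : ∃ s : ℝ, s = Real.sqrt (r / 128) := ⟨_, rfl⟩
  have hs2 : s ^ 2 * 128 = r := by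
    rw [hs, Real.sq_sqrt (by positivity)]
    field_simp
  have hs1 : 1 ≤ s := by
    rw [hs, Real.one_le_sqrt, le_div_iff₀ (by norm_num)]
    linarith only [hr']
  have hL2 : L ≤ 2.8522 + 2 * s := by
    have h1 : Real.log s ≤ s - 1 := Real.log_le_sub_one_of_pos (by linarith only [hs1])
    have h2 : Real.log r = 2 * Real.log s + Real.log 128 := by
      rw [← hs2, Real.log_mul (by positivity) (by norm_num), Real.log_pow]
      norm_num
    rw [hL, h2, h128]
    linarith only [h1, hl2']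
  obtain ⟨y, hy⟩ : ∃ y : ℝ, y = 1 / (r : ℝ) := ⟨_, rfl⟩
  have hinv : y ≤ 1 / 128 := by rw [hy]; exact one_div_le_one_div_of_le (by norm_num) hr'
  have hinv0 : 0 < y := by rw [hy]; positivity
  have hyr : y * r = 1 := by rw [hy]; field_simp
  obtain ⟨z, hz⟩ : ∃ z, z = 1.2751 + L / 2 + y := ⟨_, rfl⟩
  have hz0 : 0 < z := by rw [hz]; linarith only [hL1, hinv0]
  have hz2 : z ≤ 2.7091 + s := by linarith only [hz, hL2, hinv]
  obtain ⟨x, hx⟩ : ∃ x, x = z / r := ⟨_, rfl⟩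
  have hx0 : 0 ≤ x := by rw [hx]; positivity
  have hxy : x = z * y := by rw [hx, hy]; field_simp
  have hx1 : x ≤ 0.045 := by
    rw [hx, div_le_iff₀ hr0, ← hs2]
    nlinarith only [hz2, hs1]
  have h1 : vv r ≤ 1 / 4 * (1 + x + 0.51 * x ^ 2) := by
    unfold vv
    rw [← hL, ← hy, ← hz, ← hx]
    refine mul_le_mul_of_nonneg_left ?_ (by norm_num)
    have h := Real.exp_bound' hx0 (hx1.trans (by norm_num)) (n := 3) (by norm_num)
    refine h.trans ?_
    simp only [sum_range_succ, sum_range_zero, Nat.factorial]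
    have h2 : x ^ 3 ≤ 0.045 * x ^ 2 := by
      rw [pow_succ, mul_comm]
      exact mul_le_mul_of_nonneg_right hx1 (sq_nonneg x)
    norm_num
    linarith only [h2]
  have h2 : y - y ^ 2 / 2 ≤ Real.log ((r : ℝ) + 1) - L := by
    have e1 := Real.le_log_one_add_of_nonneg hinv0.le
    have e2 : 1 + y = ((r : ℝ) + 1) / r := by
      rw [hy]
      field_simp
    rw [e2, Real.log_div (by positivity) hr0.ne', ← hL] at e1
    refine le_trans ?_ e1
    rw [le_div_iff₀ (by positivity)]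
    nlinarith only [hinv0, mul_pos hinv0 (mul_pos hinv0 hinv0)]
  have hD : 0 ≤ y - y ^ 2 / 2 := by nlinarith only [hinv0, hinv]
  have h3 : 2 * L * (y - y ^ 2 / 2) ≤ Real.log ((r : ℝ) + 1) ^ 2 - L ^ 2 := by
    have e1 : Real.log ((r : ℝ) + 1) ^ 2 - L ^ 2 =
        (Real.log ((r : ℝ) + 1) - L) * (Real.log ((r : ℝ) + 1) + L) := by ring
    have e3 : L ≤ Real.log ((r : ℝ) + 1) := by linarith only [h2, hD]
    rw [e1]
    calc 2 * L * (y - y ^ 2 / 2) = (y - y ^ 2 / 2) * (2 * L) := by ring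
      _ ≤ (Real.log ((r : ℝ) + 1) - L) * (Real.log ((r : ℝ) + 1) + L) :=
          mul_le_mul h2 (by linarith only [e3]) (by linarith only [hL1]) (by linarith only [h2, hD])
  have h4 : 0.79 * y ^ 2 ≤ 0.8 / r - 0.8 / ((r : ℝ) + 1) := by
    have e0 : (0.8 : ℝ) / r - 0.8 / ((r : ℝ) + 1) = 0.8 * y / ((r : ℝ) + 1) := by
      rw [hy]
      field_simp
      ring
    rw [e0, le_div_iff₀ (by positivity)]
    have e1 : 0.79 * y ^ 2 * ((r : ℝ) + 1) = 0.79 * y * (y * r) + 0.79 * y * y := by ring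
    rw [e1, hyr]
    nlinarith only [hinv0, hinv]
  have h5 : (x + 0.51 * x ^ 2) / 4 ≤ (L / 8 + 1 / 3) * (y - y ^ 2 / 2) + 0.79 * y ^ 2 := by
    have e4 : 1 / 4 + 0.1275 * z ^ 2 + (L / 16 + 1 / 6) - 0.79 ≤ 0.01455 * r := by
      rw [← hs2]
      have e5 : z ^ 2 ≤ (2.7091 + s) ^ 2 := pow_le_pow_left₀ hz0.le hz2 2
      nlinarith only [e5, hL2, hs1]
    have e6 := mul_le_mul_of_nonneg_right e4 (sq_nonneg y)
    have e7 : 0.01455 * (r : ℝ) * y ^ 2 = 0.01455 * y * (y * r) := by ring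
    rw [e7, hyr] at e6
    have e8 : z * y = 1.2751 * y + L / 2 * y + y ^ 2 := by rw [hz]; ring
    rw [hxy, mul_pow, e8]
    linarith only [e6, hinv0]
  unfold Psi
  rw [← hL]
  linarith only [h1, h2, h3, h4, h5]

theorem sum_vv (d : ℕ) (hd : 128 ≤ d) : ∑ r ∈ Ico 128 d, vv r ≤ Psi d - Psi 128 := by
  induction d, hd using Nat.le_induction with
  | base => simp
  | succ d hd ih =>
    rw [Finset.sum_Ico_succ_top (by omega)]
    have h1 := vv_step d hd
    push_cast
    linarith only [h1, ih]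

theorem Psi_128 : 35.0824 ≤ Psi 128 := by
  have hl2 := Real.log_two_gt_d9
  have h128 : Real.log (128 : ℝ) = 7 * Real.log 2 := by
    rw [show (128 : ℝ) = 2 ^ 7 by norm_num, Real.log_pow]
    norm_num
  have h2 : 4.852 ≤ Real.log (128 : ℝ) := by linarith only [h128, hl2]
  have h3 : (4.852 : ℝ) ^ 2 ≤ Real.log (128 : ℝ) ^ 2 := pow_le_pow_left₀ (by norm_num) h2 2
  unfold Psi
  norm_num at h3 ⊢
  linarith only [h2, h3]

end Vale.Agent.N018Y
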