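import Vale.Agent.N018Y.Tab
import Vale.Agent.N018Y.Tail
import Vale.Agent.N018.RangeW
import Vale.Agent.P018.R2.H803.LogTab

/-! # P018, N018Y: the range `k ≥ d/4 + (log d)^2/16 + (log d)/3 + 0.651`. -/

namespace Vale.Agent.N018Y

open Finset Polynomial Vale.Agent.P018 Vale.Agent.P018.K2 Vale.Agent.P018.K3
  Vale.Agent.P018.R2.H677 Vale.Agent.P018.H867R Vale.Agent.P018.R2.H803 Vale.Agent.N018

theorem adm_tab (d k : ℕ) (hk : 1 ≤ k) (hkd : k ≤ d) (h4 : (d : ℝ) / 4 ≤ k)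
    (h : (d ≤ 98 ∧ 28 ≤ k) ∨ 35.733 + ∑ r ∈ Ico 128 d, vv r < k) (a : ℝ) (h0 : 1 ≤ a)
    (h1 : a ≤ (d : ℝ) / k) : Adm2 d k a := by
  have hd : 1 ≤ d := hk.trans hkd
  have hd0 : (0 : ℝ) < d := by exact_mod_cast hd
  have hk0 : (0 : ℝ) < k := by exact_mod_cast hk
  have ha : 0 < a := by linarith only [h0]
  have g0 : 1 / 4 ≤ a / d * k := by
    rw [div_mul_eq_mul_div, le_div_iff₀ hd0]
    nlinarith only [h0, h4, hk0]
  have g1 : a / d * k ≤ 1 := by
    rw [le_div_iff₀ hk0] at h1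
    rw [div_mul_eq_mul_div, div_le_one hd0]
    exact h1
  have hT := wT_ok
  rw [Bool.and_eq_true, List.all_eq_true] at hT
  have hne : wT.map decRow ≠ [] := by
    intro h5
    rw [h5] at hT
    simp [mCover] at hT
  obtain ⟨row, hm, h6, h7⟩ := mCover_row 10000 (a / d * k) (by push_cast; linarith only [g1])
    _ 2500 hT.2 (Or.inr ⟨by push_cast; linarith only [g0], hne⟩)
  have h2 := hT.1 row hm
  rw [tRow, Bool.and_eq_true, Bool.and_eq_true, decide_eq_true_eq, decide_eq_true_eq] at h2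
  obtain ⟨⟨h3, h8⟩, h9⟩ := h2
  have hv : ∀ r, 128 ≤ r → Crit d k r a (vv r / k) := fun r hr =>
    crit_tail d k r hd hk hr a ha g0 _ (vv_pos r) (vv_pow r hr)
  rcases h with ⟨h10, h11⟩ | h10
  · refine adm_row d k _ _ 96 hd hk a ha h6 h7 g1 _ csU esU csU_ok esU_ok h3 vv vv_pos hv
      (by omega) (by norm_num) ?_
    rw [Finset.Ico_eq_empty (by omega), sum_empty, add_zero, div_lt_iff₀ (by norm_num)]
    have h12 : (28 : ℝ) ≤ k := by exact_mod_cast h11
    have h13 : ((200 * row.2.1 + ps (100 * row.2.1) 96 row.2.2 : ℕ) : ℝ) < ((28000000 : ℕ) : ℝ) :=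
      Nat.cast_lt.2 h9
    rw [Nat.cast_ofNat] at h13
    linarith only [h12, h13]
  · refine adm_row d k _ _ 126 hd hk a ha h6 h7 g1 _ csU esU csU_ok esU_ok h3 vv vv_pos hv
      (by omega) (by norm_num) ?_
    have h13 : ((200 * row.2.1 + ps (100 * row.2.1) 126 row.2.2 : ℕ) : ℝ) ≤ ((35733000 : ℕ) : ℝ) :=
      Nat.cast_le.2 h8
    rw [Nat.cast_ofNat] at h13
    linarith only [h10, h13]

/-- the pairs (degree, exponent) that are treated. -/
def InRangeV (d k : ℕ) : Prop :=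
  d ≤ 4 ∨ ((d, k) ≠ (19, 7) ∧ (d : ℝ) / 4 + Real.log d ^ 2 / 16 + Real.log d / 3 + 0.651 ≤ k)

/-- the cases for `d < 128`, `k < 36` -/
def smallP (d k : ℕ) : Prop :=
  (d = 19 ∧ k = 7) ∨ (d = 98 ∧ k = 28) ∨ d ≤ 2 * k ∨ d + 3 ≤ 3 * k ∨
    2 * d + 12 ≤ 7 * k ∨ ∃ e ∈ topDeg, d ≤ e.1 ∧ k = e.2

instance (d k : ℕ) : Decidable (smallP d k) := by
  unfold smallP
  infer_instance

theorem small_ok : ∀ i < 123, ∀ k < 36,
    12000000 * (i + 5) + 3 * (lt.getD i 0) ^ 2 + 16000 * lt.getD i 0 + 31248000 ≤ 48000000 * k →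
    smallP (i + 5) k := by
  decide +kernel

/-- irreducible polynomials. -/
theorem tailV : TailR InRangeV := by
  intro f hirr k hk hr
  obtain ⟨d, hd⟩ : ∃ d, d = f.natDegree := ⟨_, rfl⟩
  rcases le_or_gt d 4 with h4 | h4
  · exact tailW f hirr k hk (Or.inl (by omega))
  rw [← hd] at hr
  obtain ⟨h1, h2⟩ := hr.resolve_left (by omega)
  have hd5 : (5 : ℝ) ≤ d := by exact_mod_cast h4
  have hL : 0 ≤ Real.log (d : ℝ) := Real.log_nonneg (by linarith only [hd5])
  have hq : (d : ℝ) / 4 ≤ k := by linarith only [h2, hL, sq_nonneg (Real.log (d : ℝ))]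
  have key : ((d ≤ 98 ∧ 28 ≤ k) ∨ 35.733 + ∑ r ∈ Ico 128 d, vv r < k) → H867P.TailPow f k :=
    fun h => tail_of_adm' f hirr k hk fun hkd a ha ha2 => by
      rw [← hd] at hkd ha2 ⊢
      exact adm_tab d k (by omega) hkd hq h a ha ha2
  rcases lt_or_ge d 128 with h5 | h5
  · rcases lt_or_ge k 36 with h6 | h6
    · obtain ⟨i, rfl⟩ : ∃ i, d = i + 5 := ⟨d - 5, by omega⟩
      have h7 := log_ge i (by omega)
      obtain ⟨n, hn⟩ : ∃ n : ℕ, n = lt.getD i 0 := ⟨_, rfl⟩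
      have h8 := small_ok i (by omega) k h6
      rw [← hn] at h7 h8
      have h9 : ((n : ℝ) / 1000) ^ 2 ≤ Real.log ((i + 5 : ℕ) : ℝ) ^ 2 :=
        pow_le_pow_left₀ (by positivity) h7 2
      have h10 : 12000000 * (i + 5) + 3 * n ^ 2 + 16000 * n + 31248000 ≤ 48000000 * k := by
        have h11 : (12000000 : ℝ) * ((i + 5 : ℕ) : ℝ) + 3 * (n : ℝ) ^ 2 + 16000 * n + 31248000 ≤
            48000000 * k := by
          rw [div_pow] at h9
          linarith only [h2, h7, h9]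
        exact_mod_cast h11
      rcases h8 h10 with h | h | h | h | h | h
      · exact absurd (by rw [h.1, h.2]) h1
      · exact key (Or.inl ⟨by omega, by omega⟩)
      · exact tailW f hirr k hk (Or.inl (by omega))
      · exact tailW f hirr k hk (Or.inr (Or.inl (by omega)))
      · exact tailW f hirr k hk (Or.inr (Or.inr (Or.inl (by omega))))
      · exact tailW f hirr k hk (Or.inr (Or.inr (Or.inr (Or.inr (Or.inl (hd ▸ h))))))
    · refine key (Or.inr ?_)
      rw [Finset.Ico_eq_empty (by omega), sum_empty]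
      have : (36 : ℝ) ≤ k := by exact_mod_cast h6
      linarith only [this]
  · refine key (Or.inr ?_)
    have h6 := sum_vv d h5
    have h7 := Psi_128
    have h8 : (0 : ℝ) < 0.8 / d := by positivity
    unfold Psi at h6
    unfold Psi at h7
    linarith only [h2, h6, h7, h8]

theorem predicted_of_irrV (f : ℤ[X]) (k : ℕ) (hk : 2 ≤ k)
    (hirr : Irreducible (f.map (Int.castRingHom ℚ)))
    (hloc : ∀ p : ℕ, p.Prime → rho f (p ^ k) < p ^ k) (hr : InRangeV f.natDegree k) :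
    Predicted f k := by
  obtain ⟨h1, h2, h3⟩ := main_oneR tailV f k hk (goodR_of_irr f k hk hirr hr) hloc
  exact ⟨h1, h2, isLittleO_of_pow h3, h3⟩

end Vale.Agent.N018Y
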