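import Vale.Agent.N018Y.Crit

set_option linter.all false

/-! # P018, N018Y: rows of a table in which `t = k b` is fixed on each interval of `κ`. -/

namespace Vale.Agent.N018Y

open Finset Vale.Agent.P018.K2 Vale.Agent.P018.K3 Vale.Agent.P018.R2.H677

/-- linear weight; `κ ≥ K / 10 ^ 4`, `ν = n / 1024`, `t = τ / 10 ^ 6` -/
noncomputable def lStep (K r : ℕ) (cl : List ℕ) (n τ : ℕ) : Bool :=
  and (Nat.ble (Nat.succ n) 1024) (and (Nat.ble K 10000)
    (Nat.ble (Nat.succ (Nat.mul (Nat.pow (Nat.sub 10240000 (Nat.mul K n)) (Nat.succ r))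
      (Nat.pow 100 r)))
      (Nat.mul (Nat.mul (Nat.pow τ r) K)
        (Nat.mul (Nat.pow (Nat.sub 1024 n) 2) (hv n (Nat.sub 1024 n) cl 0 1)))))

/-- constant weight, at one end of the interval -/
noncomputable def cOne (K r n h : ℕ) : Bool :=
  Nat.ble (Nat.succ (Nat.mul (Nat.sub (Nat.pow (Nat.add 10240000 (Nat.mul K n)) (Nat.add r 2))
    (Nat.pow (Nat.mul K n) (Nat.add r 2))) (Nat.pow 100 r))) (Nat.mul K h)

/-- constant weight, at both ends -/
noncomputable def cStep (K0 K1 r : ℕ) (cl : List ℕ) (n τ : ℕ) : Bool :=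
  and (cOne K0 r n (Nat.mul (Nat.mul (Nat.pow τ r) 10240000) (hv n 1024 cl 0 1)))
    (cOne K1 r n (Nat.mul (Nat.mul (Nat.pow τ r) 10240000) (hv n 1024 cl 0 1)))

theorem lStep_sound (d k K r : ℕ) (hd : 1 ≤ d) (hk : 1 ≤ k) (hr : 1 ≤ r) (a : ℝ) (ha : 0 < a)
    (hκ : (K : ℝ) / 10000 ≤ a / d * k) (hκ1 : a / d * k ≤ 1) (n τ : ℕ)
    (h : lStep K r ((List.range r).map (cf r)) n τ = true) :
    0 < τ ∧ Crit d k r a ((τ : ℝ) / 1000000 / k) := by
  unfold lStep at h
  rw [Bool.and_eq_true, Bool.and_eq_true, Nat.ble_eq, Nat.ble_eq, Nat.ble_eq] at h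
  obtain ⟨h1, h2, h3⟩ := h
  have h1' : n < 1024 := h1
  have h4 : (10240000 - K * n) ^ (r + 1) * 100 ^ r <
      τ ^ r * K * ((1024 - n) ^ 2 * hv n (1024 - n) ((List.range r).map (cf r)) 0 1) := h3
  rw [hv_eq, zero_mul, zero_add, one_mul, hev_fst] at h4
  have hlen : ((List.range r).map (cf r)).length = r := by simp
  rw [hlen] at h4
  have e5 : ∀ e ∈ range r, ((List.range r).map (cf r)).getD e 0 * n ^ e * (1024 - n) ^ (r - 1 - e) =
      cf r e * n ^ e * (1024 - n) ^ (r - 1 - e) := by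
    intro e he
    rw [mem_range] at he
    congr 2
    rw [List.getD_eq_getElem _ _ (by simpa using he)]
    simp
  rw [sum_congr rfl e5] at h4
  have hτ : 0 < τ := by
    rcases Nat.eq_zero_or_pos τ with h5 | h5
    · rw [h5, zero_pow (by omega), zero_mul, zero_mul] at h4
      exact absurd h4 (Nat.not_lt_zero _)
    · exact h5
  refine ⟨hτ, ?_⟩
  have hτ' : (0 : ℝ) < τ := by exact_mod_cast hτ
  have hn : (n : ℝ) < 1024 := by exact_mod_cast h1'
  have hn0 : (0 : ℝ) ≤ n := Nat.cast_nonneg n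
  have hKn : K * n ≤ 10240000 := Nat.mul_le_mul h2 h1'.le
  have h6 : ((10240000 : ℝ) - K * n) ^ (r + 1) * 100 ^ r < (τ : ℝ) ^ r * K * ((1024 - n) ^ 2 *
      ∑ e ∈ range r, (cf r e : ℝ) * (n : ℝ) ^ e * (1024 - n) ^ (r - 1 - e)) := by
    have h7 : ((((10240000 - K * n) ^ (r + 1) * 100 ^ r : ℕ)) : ℝ) < ((τ ^ r * K * ((1024 - n) ^ 2 *
      ∑ e ∈ range r, cf r e * n ^ e * (1024 - n) ^ (r - 1 - e)) : ℕ) : ℝ) := by exact_mod_cast h4
    push_cast [Nat.cast_sub hKn, Nat.cast_sub h1'.le] at h7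
    exact h7
  refine crit_lin d k r hd hk hr a ha hκ1 _ (by positivity) ((n : ℚ) / 1024) (by positivity)
    (by rw [div_lt_one (by norm_num)]; exact_mod_cast h1') ?_
  obtain ⟨κ, hκ'⟩ : ∃ κ : ℝ, κ = a / d * k := ⟨_, rfl⟩
  rw [← hκ'] at hκ hκ1 ⊢
  push_cast
  have e1 : ∑ e ∈ range r, (cf r e : ℝ) * ((n : ℝ) / 1024) ^ e * (1 - (n : ℝ) / 1024) ^ (r + 1 - e) =
      ((1024 - n) ^ 2 * ∑ e ∈ range r, (cf r e : ℝ) * (n : ℝ) ^ e * (1024 - n) ^ (r - 1 - e)) /
        1024 ^ (r + 1) := by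
    rw [mul_sum, sum_div]
    refine sum_congr rfl fun e he => ?_
    rw [mem_range] at he
    have e2 : ((1024 : ℝ) - n) ^ (r + 1 - e) = (1024 - n) ^ 2 * (1024 - n) ^ (r - 1 - e) := by
      rw [← pow_add]
      congr 1
      omega
    have e3 : (1024 : ℝ) ^ (r + 1) = 1024 ^ e * 1024 ^ (r + 1 - e) := by
      rw [← pow_add]
      congr 1
      omega
    rw [one_sub_div (by norm_num), div_pow, div_pow, e2, e3]
    field_simp
  rw [e1]
  obtain ⟨S, hS⟩ : ∃ S : ℝ, S = (1024 - n) ^ 2 *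
    ∑ e ∈ range r, (cf r e : ℝ) * (n : ℝ) ^ e * (1024 - n) ^ (r - 1 - e) := ⟨_, rfl⟩
  have hS0 : 0 ≤ S := by
    rw [hS]
    have : (0 : ℝ) ≤ 1024 - n := by linarith only [hn]
    exact mul_nonneg (sq_nonneg _) (sum_nonneg fun e _ => by positivity)
  rw [← hS] at h6 ⊢
  have hK0 : (0 : ℝ) ≤ K := Nat.cast_nonneg K
  have hκ0 : 0 ≤ κ := le_trans (by positivity) hκ
  have h8 : (1 - κ * ((n : ℝ) / 1024)) ^ (r + 1) ≤ ((10240000 - K * n) / 10240000) ^ (r + 1) := by
    refine pow_le_pow_left₀ (by nlinarith) ?_ _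
    have : (K : ℝ) / 10000 * n ≤ κ * n := mul_le_mul_of_nonneg_right hκ hn0
    linarith only [this]
  refine h8.trans_lt ?_
  have h9 : ((τ : ℝ) / 1000000) ^ r * ((K : ℝ) / 10000) * (S / 1024 ^ (r + 1)) ≤
      ((τ : ℝ) / 1000000) ^ r * κ * (S / 1024 ^ (r + 1)) := by gcongr
  refine lt_of_lt_of_le ?_ h9
  have e4 : (10240000 : ℝ) ^ (r + 1) = 10000 ^ r * 10000 * 1024 ^ (r + 1) := by
    rw [← pow_succ, ← mul_pow]
    norm_num
  have e6 : (1000000 : ℝ) ^ r = 10000 ^ r * 100 ^ r := by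
    rw [← mul_pow]
    norm_num
  have e7 : ((τ : ℝ) / 1000000) ^ r * ((K : ℝ) / 10000) * (S / 1024 ^ (r + 1)) =
      ((τ : ℝ) ^ r * K * S) / 100 ^ r / 10240000 ^ (r + 1) := by
    rw [div_pow, e4, e6]
    field_simp
  rw [e7, div_pow]
  refine div_lt_div_of_pos_right ?_ (by positivity)
  rw [lt_div_iff₀ (by positivity)]
  exact h6

theorem cOne_sound (K r n τ : ℕ) (S : ℕ) (h : cOne K r n (τ ^ r * 10240000 * S) = true) :
    (1 + (K : ℝ) / 10000 * ((n : ℝ) / 1024)) ^ (r + 2) - ((K : ℝ) / 10000 * ((n : ℝ) / 1024)) ^ (r + 2) <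
      ((τ : ℝ) / 1000000) ^ r * ((K : ℝ) / 10000) * ((S : ℝ) / 1024 ^ (r + 1)) := by
  unfold cOne at h
  rw [Nat.ble_eq] at h
  have h4 : ((10240000 + K * n) ^ (r + 2) - (K * n) ^ (r + 2)) * 100 ^ r <
      K * (τ ^ r * 10240000 * S) := h
  have hle : (K * n) ^ (r + 2) ≤ (10240000 + K * n) ^ (r + 2) := Nat.pow_le_pow_left (by omega) _
  have h6 : (((10240000 : ℝ) + K * n) ^ (r + 2) - ((K : ℝ) * n) ^ (r + 2)) * 100 ^ r <
      K * ((τ : ℝ) ^ r * 10240000 * S) := by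
    have h7 : (((((10240000 + K * n) ^ (r + 2) - (K * n) ^ (r + 2)) * 100 ^ r : ℕ)) : ℝ) <
      ((K * (τ ^ r * 10240000 * S) : ℕ) : ℝ) := by exact_mod_cast h4
    rw [Nat.cast_mul, Nat.cast_sub hle] at h7
    push_cast at h7
    exact h7
  have e1 : (1 + (K : ℝ) / 10000 * ((n : ℝ) / 1024)) = (10240000 + K * n) / 10240000 := by
    ring
  have e2 : (K : ℝ) / 10000 * ((n : ℝ) / 1024) = (K * n) / 10240000 := by
    ring
  rw [e1, e2, div_pow, div_pow, div_sub_div_same]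
  have e4 : (10240000 : ℝ) ^ (r + 2) = 10000 ^ r * 10000 * 1024 ^ (r + 1) * 10240000 := by
    rw [← pow_succ, ← mul_pow, pow_succ]
    norm_num
  have e6 : (1000000 : ℝ) ^ r = 10000 ^ r * 100 ^ r := by
    rw [← mul_pow]
    norm_num
  have e7 : ((τ : ℝ) / 1000000) ^ r * ((K : ℝ) / 10000) * ((S : ℝ) / 1024 ^ (r + 1)) =
      (K * ((τ : ℝ) ^ r * 10240000 * S)) / 100 ^ r / 10240000 ^ (r + 2) := by
    rw [div_pow, e4, e6]
    field_simp
  rw [e7]
  refine div_lt_div_of_pos_right ?_ (by positivity)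
  rw [lt_div_iff₀ (by positivity)]
  exact h6

theorem cStep_sound (d k K0 K1 r : ℕ) (hd : 1 ≤ d) (hk : 1 ≤ k) (hr : 1 ≤ r) (a : ℝ) (ha : 0 < a)
    (hκ : (K0 : ℝ) / 10000 ≤ a / d * k) (hκ1 : a / d * k ≤ (K1 : ℝ) / 10000) (n τ : ℕ)
    (h : cStep K0 K1 r ((List.range (r + 2)).map (cmf r)) n τ = true) :
    0 < τ ∧ Crit d k r a ((τ : ℝ) / 1000000 / k) := by
  unfold cStep at h
  rw [Bool.and_eq_true] at h
  obtain ⟨S, hS⟩ : ∃ S : ℕ, S = hv n 1024 ((List.range (r + 2)).map (cmf r)) 0 1 := ⟨_, rfl⟩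
  rw [← hS] at h
  have g0 := cOne_sound K0 r n τ S h.1
  have g1 := cOne_sound K1 r n τ S h.2
  have hτ : 0 < τ := by
    rcases Nat.eq_zero_or_pos τ with h5 | h5
    · exfalso
      rw [h5, Nat.cast_zero, zero_div, zero_pow (by omega), zero_mul, zero_mul, sub_neg] at g0
      exact absurd g0 (not_lt.2 (pow_le_pow_left₀ (by positivity) (by linarith) _))
    · exact h5
  refine ⟨hτ, ?_⟩
  have hτ' : (0 : ℝ) < τ := by exact_mod_cast hτ
  rw [hv_eq, zero_mul, zero_add, one_mul, hev_fst] at hS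
  have hlen : ((List.range (r + 2)).map (cmf r)).length = r + 2 := by simp
  rw [hlen] at hS
  have e1 : (S : ℝ) / 1024 ^ (r + 1) = ∑ e ∈ range (r + 2), (cmf r e : ℝ) * ((n : ℝ) / 1024) ^ e := by
    rw [hS, Nat.cast_sum, sum_div]
    refine sum_congr rfl fun e he => ?_
    rw [mem_range] at he
    rw [List.getD_eq_getElem _ _ (by simpa using he)]
    simp only [List.getElem_map, List.getElem_range]
    have e3 : (1024 : ℝ) ^ (r + 1) = 1024 ^ e * 1024 ^ (r + 2 - 1 - e) := by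
      rw [← pow_add]
      congr 1
      omega
    rw [e3, div_pow]
    push_cast
    field_simp
  refine crit_con d k r hd hk hr a ha _ (by positivity) ((n : ℝ) / 1024) (by positivity) ?_
  rw [← e1]
  obtain ⟨κ, hκ'⟩ : ∃ κ : ℝ, κ = a / d * k := ⟨_, rfl⟩
  rw [← hκ'] at hκ hκ1 ⊢
  obtain ⟨ν, hν⟩ : ∃ ν : ℝ, ν = (n : ℝ) / 1024 := ⟨_, rfl⟩
  have hν0 : 0 ≤ ν := by rw [hν]; positivity
  rw [← hν] at g0 g1 ⊢
  obtain ⟨c, hc⟩ : ∃ c : ℝ, c = ((τ : ℝ) / 1000000) ^ r * ((S : ℝ) / 1024 ^ (r + 1)) := ⟨_, rfl⟩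
  have hc0 : 0 ≤ c := by rw [hc]; positivity
  have e2 : ∀ y : ℝ, ((τ : ℝ) / 1000000) ^ r * y * ((S : ℝ) / 1024 ^ (r + 1)) = c * y := by
    intro y
    rw [hc]
    ring
  rw [e2] at g0 g1 ⊢
  rcases eq_or_lt_of_le hν0 with h5 | h5
  · rw [← h5, mul_zero] at g0 ⊢
    exact g0.trans_le (mul_le_mul_of_nonneg_left hκ hc0)
  · have e3 : ∀ y : ℝ, c * y = c / ν * (y * ν) := by
      intro y
      field_simp
    rw [e3] at g0 g1 ⊢
    exact conv_pow (r + 2) (c / ν) _ _ _ (by positivity) (mul_le_mul_of_nonneg_right hκ hν0)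
      (mul_le_mul_of_nonneg_right hκ1 hν0) g0 g1

/-- entries `(type, n, τ)`: linear weight, constant weight, or no step -/
noncomputable def tSteps (K0 K1 : ℕ) : ℕ → ℕ → List (List ℕ) → List (List ℕ) →
    List (ℕ × ℕ × ℕ) → Bool
  | _, _, _, _, [] => true
  | _, _, [], _, _ :: _ => false
  | _, _, _ :: _, [], _ :: _ => false
  | r, B, c :: cs, e :: es, p :: l =>
    and (match p.1 with
        | 0 => lStep K0 r c p.2.1 p.2.2
        | 1 => cStep K0 K1 r e p.2.1 p.2.2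
        | _ + 2 => Nat.ble B p.2.2)
      (tSteps K0 K1 (r + 1) p.2.2 cs es l)

/-- the sequence of the `τ` -/
def sq : ℕ → List (ℕ × ℕ × ℕ) → ℕ → ℕ
  | B, _, 0 => B
  | B, [], _ + 1 => B
  | _, p :: l, i + 1 => sq p.2.2 l i

/-- its sums -/
def ps : ℕ → ℕ → List (ℕ × ℕ × ℕ) → ℕ
  | _, 0, _ => 0
  | B, n + 1, [] => B + ps B n []
  | _, n + 1, p :: l => p.2.2 + ps p.2.2 n l

theorem sq_zero (B : ℕ) (l : List (ℕ × ℕ × ℕ)) : sq B l 0 = B := by
  cases l <;> rfl

theorem sq_nil (B i : ℕ) : sq B [] i = B := by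
  cases i <;> rfl

theorem ps_eq (n : ℕ) : ∀ (B : ℕ) (l : List (ℕ × ℕ × ℕ)),
    ps B n l = ∑ i ∈ range n, sq B l (i + 1) := by
  induction n with
  | zero => intro B l; cases l <;> rfl
  | succ n ih =>
    intro B l
    cases l with
    | nil =>
      rw [ps, ih, sum_range_succ', add_comm]
      simp only [sq_nil]
    | cons p l =>
      rw [ps, ih, sum_range_succ', add_comm]
      congr 1

theorem tSteps_sound (d k K0 K1 : ℕ) (hd : 1 ≤ d) (hk : 1 ≤ k) (a : ℝ) (ha : 0 < a)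
    (hκ : (K0 : ℝ) / 10000 ≤ a / d * k) (hκ1 : a / d * k ≤ (K1 : ℝ) / 10000)
    (hκ2 : a / d * k ≤ 1) (l : List (ℕ × ℕ × ℕ)) :
    ∀ (r B : ℕ) (cs es : List (List ℕ)), 1 ≤ r → 0 < B → csOK r cs → esOK r es →
    tSteps K0 K1 r B cs es l = true → ∀ i, 0 < sq B l i ∧ (sq B l i ≤ sq B l (i + 1) ∨
      Crit d k (r + i) a ((sq B l (i + 1) : ℝ) / 1000000 / k)) := by
  induction l with
  | nil =>
    intro r B cs es _ hB _ _ _ i
    rw [sq_nil, sq_nil]
    exact ⟨hB, Or.inl le_rfl⟩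
  | cons p l ih =>
    intro r B cs es hr hB hcs hes h i
    cases cs with
    | nil => simp [tSteps] at h
    | cons c cs =>
      cases es with
      | nil => simp [tSteps] at h
      | cons e es =>
        rw [tSteps, Bool.and_eq_true] at h
        obtain ⟨t, n, τ⟩ := p
        have h1 : 0 < τ ∧ (B ≤ τ ∨ Crit d k r a ((τ : ℝ) / 1000000 / k)) := by
          have h2 := h.1
          match t, h2 with
          | 0, h2 =>
            simp only at h2
            rw [hcs.1] at h2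
            have h3 := lStep_sound d k K0 r hd hk hr a ha hκ hκ2 n τ h2
            exact ⟨h3.1, Or.inr h3.2⟩
          | 1, h2 =>
            simp only at h2
            rw [hes.1] at h2
            have h3 := cStep_sound d k K0 K1 r hd hk hr a ha hκ hκ1 n τ h2
            exact ⟨h3.1, Or.inr h3.2⟩
          | t + 2, h2 =>
            simp only [Nat.ble_eq] at h2
            exact ⟨hB.trans_le h2, Or.inl h2⟩
        cases i with
        | zero =>
          rw [sq_zero, sq, sq_zero]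
          exact ⟨hB, h1.2⟩
        | succ i =>
          have h4 := ih (r + 1) τ cs es (by omega) h1.1 hcs.2 hes.2 h.2 i
          rw [show r + 1 + i = r + (i + 1) by ring] at h4
          exact h4

/-- a row for the steps `r < 128`, and a sequence `v` for the later ones. -/
theorem adm_row (d k K0 K1 D : ℕ) (hd : 1 ≤ d) (hk : 1 ≤ k) (a : ℝ) (ha : 0 < a)
    (hκ : (K0 : ℝ) / 10000 ≤ a / d * k) (hκ1 : a / d * k ≤ (K1 : ℝ) / 10000)
    (hκ2 : a / d * k ≤ 1) (l : List (ℕ × ℕ × ℕ)) (cs es : List (List ℕ)) (hcs : csOK 2 cs)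
    (hes : esOK 2 es) (h : tSteps K0 K1 2 (100 * K1) cs es l = true) (v : ℕ → ℝ)
    (hv0 : ∀ r, 0 < v r) (hv : ∀ r, 128 ≤ r → Crit d k r a (v r / k))
    (hD : min d 128 ≤ D + 2) (hD2 : D ≤ 126)
    (hs : ((200 * K1 + ps (100 * K1) D l : ℕ) : ℝ) / 1000000 + ∑ r ∈ Ico 128 d, v r < k) :
    Adm2 d k a := by
  have hd0 : (0 : ℝ) < d := by exact_mod_cast hd
  have hk0 : (0 : ℝ) < k := by exact_mod_cast hk
  have hK1 : 0 < K1 := by
    have h1 : (0 : ℝ) < (K1 : ℝ) / 10000 := lt_of_lt_of_le (by positivity) hκ1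
    have h2 : (0 : ℝ) < K1 := by linarith only [h1]
    exact_mod_cast h2
  have hst := tSteps_sound d k K0 K1 hd hk a ha hκ hκ1 hκ2 l 2 (100 * K1) cs es (by norm_num)
    (by omega) hcs hes h
  obtain ⟨s, hs'⟩ : ∃ s : ℕ → ℕ, s = sq (100 * K1) l := ⟨_, rfl⟩
  have hs0 : s 0 = 100 * K1 := by rw [hs', sq_zero]
  rw [ps_eq] at hs
  rw [← hs'] at hst hs
  have hw : a / d ≤ (s 0 : ℝ) / 1000000 / k := by
    rw [le_div_iff₀ hk0, hs0]
    push_cast
    linarith only [hκ1]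
  obtain ⟨t, ht⟩ : ∃ t : ℕ → ℝ, t = fun r => if r = 0 then a / d else
    if r < 128 then (s (r - 1) : ℝ) / 1000000 / k else v r / k := ⟨_, rfl⟩
  have ht0 : t 0 = a / d := by rw [ht]; simp
  have ht1 : ∀ r, r + 1 < 128 → t (r + 1) = (s r : ℝ) / 1000000 / k := by
    intro r hr
    rw [ht]
    simp only
    rw [if_neg (by omega), if_pos hr, Nat.add_sub_cancel]
  have ht2 : ∀ r, 128 ≤ r → t r = v r / k := by
    intro r hr
    rw [ht]
    simp only
    rw [if_neg (by omega), if_neg (by omega)]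
  have hpos : ∀ r, 0 < t r := by
    intro r
    cases r with
    | zero => rw [ht0]; positivity
    | succ r =>
      rcases lt_or_ge (r + 1) 128 with h1 | h1
      · rw [ht1 r h1]
        have : (0 : ℝ) < s r := by exact_mod_cast (hst r).1
        positivity
      · rw [ht2 _ h1]
        have := hv0 (r + 1)
        positivity
  refine adm_of_seq d k a t ht0 hpos ?_ ?_
  · intro r _
    rcases lt_or_ge (r + 1) 128 with h1 | h1
    · cases r with
      | zero =>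
        left
        rw [ht0, ht1 0 h1]
        exact hw
      | succ r =>
        rw [ht1 r (by omega), ht1 (r + 1) h1]
        rcases (hst r).2 with h2 | h2
        · left
          have : (s r : ℝ) ≤ s (r + 1) := by exact_mod_cast h2
          gcongr
        · right
          rw [show r + 1 + 1 = 2 + r by ring]
          exact h2
    · right
      rw [ht2 _ h1]
      exact hv _ h1
  · have h1 : ∑ r ∈ range d, t r ≤ ∑ r ∈ range (D + 2), t r + ∑ r ∈ Ico 128 d, t r := by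
      rw [← sum_union (by
        rw [disjoint_left]
        intro x h1 h2
        rw [mem_range] at h1
        rw [mem_Ico] at h2
        omega)]
      refine sum_le_sum_of_subset_of_nonneg (fun x hx => ?_) fun r _ _ => (hpos r).le
      rw [mem_range] at hx
      rw [mem_union, mem_range, mem_Ico]
      omega
    refine h1.trans_lt ?_
    have e1 : ∑ r ∈ Ico 128 d, t r = (∑ r ∈ Ico 128 d, v r) / k := by
      rw [sum_div]
      exact sum_congr rfl fun r hr => ht2 r (mem_Ico.1 hr).1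
    have e2 : ∑ r ∈ range D, t (r + 1 + 1) = ((∑ r ∈ range D, s (r + 1) : ℕ) : ℝ) / 1000000 / k := by
      rw [Nat.cast_sum, sum_div, sum_div]
      exact sum_congr rfl fun r hr => ht1 (r + 1) (by rw [mem_range] at hr; omega)
    rw [e1, sum_range_succ', sum_range_succ', e2, ht0, ht1 0 (by norm_num)]
    have h3 : ((∑ r ∈ range D, s (r + 1) : ℕ) : ℝ) / 1000000 / k + (s 0 : ℝ) / 1000000 / k +
        (s 0 : ℝ) / 1000000 / k + (∑ r ∈ Ico 128 d, v r) / k =
        (((200 * K1 + ∑ r ∈ range D, s (r + 1) : ℕ) : ℝ) / 1000000 + ∑ r ∈ Ico 128 d, v r) / k := by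
      rw [hs0]
      push_cast
      ring
    have h4 := (div_lt_one hk0).2 hs
    linarith only [h3, h4, hw]

end Vale.Agent.N018Y
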